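import Vale.Agent.P084.CompactConvex
import Vale.Agent.P084.Rigidity

/-!
P084 (Tingley's problem), library for finite-dimensional spaces: Euclidean coordinates in John
position, obtained by maximising the determinant over the convex hull of rank one forms.
-/

namespace Vale.Agent.P084

open scoped RealInnerProductSpace

/-- The Euclidean space of dimension `n`. -/
abbrev Euc (n : ℕ) : Type := EuclideanSpace ℝ (Fin n)

/-- Euclidean coordinates in John position, with the finitely many norming functionals. -/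
structure JohnPos (Y : Type*) [NormedAddCommGroup Y] [NormedSpace ℝ Y] (n : ℕ) where
  coord : Y ≃L[ℝ] Euc n
  trace_le : ∀ r : Euc n, (∀ z, ⟪r, coord z⟫ ≤ ‖z‖) → ‖r‖ ^ 2 ≤ n
  m : ℕ
  wt : Fin m → ℝ
  vec : Fin m → Euc n
  wt_nonneg : ∀ i, 0 ≤ wt i
  wt_sum : ∑ i, wt i = 1
  vec_le : ∀ i z, |⟪vec i, coord z⟫| ≤ ‖z‖
  resolution : ∀ x, ∑ i, (wt i * ⟪vec i, x⟫) • vec i = x

/-- The first order condition at a maximum of the determinant. -/
lemma le_of_det_update {n : ℕ} (hn : 0 < n) {a : ℝ} (ha : 0 ≤ a)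
    (h : ∀ s : ℝ, 0 < s → s < 1 → (1 - s) ^ n * (1 + s / (1 - s) * a) ≤ 1) : a ≤ n := by
  obtain ⟨k, rfl⟩ : ∃ k, n = k + 1 := ⟨n - 1, by omega⟩
  by_contra hcon
  push Not at hcon
  push_cast at hcon
  have hk : (0 : ℝ) ≤ k := k.cast_nonneg
  set d := a - ((k : ℝ) + 1) with hd
  have hd0 : 0 < d := sub_pos.2 hcon
  set s := min (1 / 2) (d / (2 * ((k : ℝ) * a + 1))) with hs
  have hs0 : 0 < s := lt_min (by norm_num) (by positivity)
  have hs1 : s ≤ 1 / 2 := min_le_left _ _
  have hs2 : s * (2 * ((k : ℝ) * a + 1)) ≤ d := by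
    rw [← le_div_iff₀ (by positivity)]
    exact min_le_right _ _
  have hne : (1 : ℝ) - s ≠ 0 := by linarith
  have h1 := h s hs0 (by linarith)
  rw [show (1 - s) ^ (k + 1) * (1 + s / (1 - s) * a) = (1 - s) ^ k * (1 - s + s * a) by
    rw [pow_succ]; field_simp] at h1
  have h2 : 1 - (k : ℝ) * s ≤ (1 - s) ^ k := by
    have := one_add_mul_le_pow (a := -s) (by linarith) k
    rw [← sub_eq_add_neg] at this
    linarith
  have h3 : 0 ≤ 1 - s + s * a := by nlinarith
  have h4 := (mul_le_mul_of_nonneg_right h2 h3).trans h1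
  have h5 : s * d ≤ s * ((k : ℝ) * s * a) := by nlinarith
  have h6 := le_of_mul_le_mul_left h5 hs0
  nlinarith

/-- Sandwiching a rank one form. -/
lemma transpose_vecMulVec_mul {n : ℕ} (O : Matrix (Fin n) (Fin n) ℝ) (r : Fin n → ℝ) :
    O.transpose * Matrix.vecMulVec r r * O =
      Matrix.vecMulVec (fun i => ∑ k, O k i * r k) (fun i => ∑ k, O k i * r k) := by
  ext i j
  simp only [Matrix.mul_apply, Matrix.transpose_apply, Matrix.vecMulVec_apply, Finset.sum_mul,
    Finset.mul_sum]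
  refine Finset.sum_congr rfl fun l _ => Finset.sum_congr rfl fun k _ => ?_
  ring

/-- The determinant of a rank one update of a multiple of the identity. -/
lemma det_update_one {n : ℕ} (r : Fin n → ℝ) {s : ℝ} (hs : s < 1) :
    ((1 - s) • (1 : Matrix (Fin n) (Fin n) ℝ) + s • Matrix.vecMulVec r r).det =
      (1 - s) ^ n * (1 + s / (1 - s) * ∑ i, r i ^ 2) := by
  have hne : (1 : ℝ) - s ≠ 0 := by linarith
  have e : (1 - s) • (1 : Matrix (Fin n) (Fin n) ℝ) + s • Matrix.vecMulVec r r =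
      (1 - s) • (1 + Matrix.replicateCol Unit ((s / (1 - s)) • r) * Matrix.replicateRow Unit r) := by
    ext i j
    simp [Matrix.mul_apply, Matrix.vecMulVec_apply]
    field_simp
  rw [e, Matrix.det_smul, Fintype.card_fin, Matrix.det_one_add_replicateCol_mul_replicateRow]
  congr 1
  simp only [dotProduct, Pi.smul_apply, smul_eq_mul, Finset.mul_sum]
  congr 1
  exact Finset.sum_congr rfl fun i _ => by ring

/-- A symmetric positive definite form on Euclidean space has an orthonormal frame. -/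
lemma exists_frame {n : ℕ} (q : Euc n →ₗ[ℝ] Euc n →ₗ[ℝ] ℝ) (hs : ∀ a b, q a b = q b a)
    (hp : ∀ a, a ≠ 0 → 0 < q a a) :
    ∃ T : Euc n ≃L[ℝ] Euc n, ∀ x y, q (T x) (T y) = ⟪x, y⟫ := by
  obtain ⟨o, lam, ho, -⟩ := exists_diag q 0 hs hp (fun a b => by simp)
  set T := ((EuclideanSpace.basisFun (Fin n) ℝ).toBasis.equiv o
    (finCongr (finrank_euclideanSpace_fin (𝕜 := ℝ) (n := n)).symm)) with hT
  refine ⟨T.toContinuousLinearEquiv, fun x y => ?_⟩
  show q (T x) (T y) = ⟪x, y⟫
  have hTo : ∀ i, T (EuclideanSpace.basisFun (Fin n) ℝ i) =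
      o (finCongr (finrank_euclideanSpace_fin (𝕜 := ℝ) (n := n)).symm i) := fun i => by
    rw [hT, ← OrthonormalBasis.coe_toBasis, Module.Basis.equiv_apply]
  have hB : q.compl₁₂ (T : Euc n →ₗ[ℝ] Euc n) (T : Euc n →ₗ[ℝ] Euc n) =
      innerₗ (Euc n) := by
    refine LinearMap.ext_basis (EuclideanSpace.basisFun (Fin n) ℝ).toBasis
      (EuclideanSpace.basisFun (Fin n) ℝ).toBasis fun i j => ?_
    simp only [OrthonormalBasis.coe_toBasis, LinearMap.compl₁₂_apply, LinearEquiv.coe_coe, hTo,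
      innerₗ_apply_apply]
    rw [← ho, o.repr_self, orthonormal_iff_ite.1 (EuclideanSpace.basisFun (Fin n) ℝ).orthonormal,
      Finsupp.single_apply]
    simp [eq_comm]
  exact LinearMap.congr_fun₂ hB x y

/-- Every normed space of positive finite dimension has John coordinates. -/
theorem exists_johnPos {Y : Type*} [NormedAddCommGroup Y] [NormedSpace ℝ Y]
    [FiniteDimensional ℝ Y] {n : ℕ} (hn : 0 < n) (hY : Module.finrank ℝ Y = n) :
    Nonempty (JohnPos Y n) := by
  classical
  let b₀ : Y ≃L[ℝ] Euc n := ContinuousLinearEquiv.ofFinrankEq (by rw [hY, finrank_euclideanSpace_fin])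
  set K₀ : Set (Euc n) := {r | ∀ z, ⟪r, b₀ z⟫ ≤ ‖z‖} with hK₀
  have hKc : IsCompact K₀ := by
    refine Metric.isCompact_of_isClosed_isBounded ?_
      (isBounded_iff_forall_norm_le.2 ⟨‖(b₀.symm : Euc n →L[ℝ] Y)‖, fun r hr => ?_⟩)
    · simp only [hK₀, Set.setOf_forall]
      exact isClosed_iInter fun z => isClosed_le (by fun_prop) continuous_const
    · have h1 := hr (b₀.symm r)
      rw [b₀.apply_symm_apply, real_inner_self_eq_norm_sq] at h1
      have h2 : ‖r‖ * ‖r‖ ≤ ‖(b₀.symm : Euc n →L[ℝ] Y)‖ * ‖r‖ := by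
        rw [← sq]
        exact h1.trans ((b₀.symm : Euc n →L[ℝ] Y).le_opNorm r)
      rcases eq_or_ne r 0 with rfl | hr0
      · simp
      · exact le_of_mul_le_mul_right h2 (norm_pos_iff.2 hr0)
  let rk : Euc n → Fin n → Fin n → ℝ := fun r i j => r i * r j
  set P : Set (Fin n → Fin n → ℝ) := convexHull ℝ (rk '' K₀) with hP
  have hPc : IsCompact P := isCompact_convexHull' (hKc.image (by fun_prop))
  -- a positive multiple of the identity belongs to the hull
  set ε : ℝ := (‖(b₀ : Y →L[ℝ] Euc n)‖ + 1)⁻¹ with hε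
  have hε0 : 0 < ε := by positivity
  have hεK : ∀ k, ε • EuclideanSpace.basisFun (Fin n) ℝ k ∈ K₀ := fun k z => by
    refine (real_inner_le_norm _ _).trans ?_
    rw [norm_smul, (EuclideanSpace.basisFun (Fin n) ℝ).orthonormal.norm_eq_one, mul_one,
      Real.norm_of_nonneg hε0.le, hε, inv_mul_le_iff₀ (by positivity)]
    exact ((b₀ : Y →L[ℝ] Euc n).le_opNorm z).trans (by gcongr; linarith)
  have hmem : (fun i j => if i = j then ε ^ 2 / n else 0) ∈ P := by
    have h := (convex_convexHull ℝ (rk '' K₀)).sum_mem (t := Finset.univ)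
      (w := fun _ : Fin n => ((n : ℝ))⁻¹) (fun k _ => by positivity)
      (by simp [mul_inv_cancel₀ (Nat.cast_ne_zero.2 hn.ne' : (n : ℝ) ≠ 0)])
      (fun k _ => subset_convexHull ℝ _ (Set.mem_image_of_mem rk (hεK k)))
    convert h using 1
    funext i j
    simp [rk, Finset.sum_apply, Pi.single_apply, mul_ite, ite_mul, div_eq_inv_mul, sq]
  obtain ⟨C₀, hC₀, hmax⟩ := hPc.exists_isMaxOn ⟨_, hmem⟩
    (f := fun C => (Matrix.of C).det) (continuous_id.matrix_det.continuousOn)
  have hdet : 0 < (Matrix.of C₀).det := by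
    refine lt_of_lt_of_le ?_ (hmax hmem)
    simp only [Set.mem_setOf_eq]
    rw [show Matrix.of (fun i j => if i = j then ε ^ 2 / (n : ℝ) else 0) =
      Matrix.diagonal fun _ : Fin n => ε ^ 2 / (n : ℝ) from rfl, Matrix.det_diagonal]
    exact Finset.prod_pos fun _ _ => by positivity
  obtain ⟨ι, hι, c, p, hc0, hc1, hp, hsum⟩ := mem_convexHull_iff_exists_fintype.1 hC₀
  choose r hr hrp using hp
  have hC : Matrix.of C₀ = ∑ a, c a • Matrix.vecMulVec (r a : Fin n → ℝ) (r a) := by
    ext i j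
    rw [Matrix.of_apply, ← hsum, Matrix.sum_apply]
    simp [Finset.sum_apply, ← hrp, rk, Matrix.vecMulVec_apply]
  set q : Euc n →ₗ[ℝ] Euc n →ₗ[ℝ] ℝ :=
    ∑ a, c a • (innerₗ (Euc n) (r a)).smulRight (innerₗ (Euc n) (r a)) with hq
  have hqa : ∀ x y, q x y = ∑ a, c a * (⟪r a, x⟫ * ⟪r a, y⟫) := fun x y => by
    simp [hq, LinearMap.sum_apply]
  have hqs : ∀ x y, q x y = q y x := fun x y => by
    simp only [hqa, mul_comm ⟪r _, x⟫]
  have hqp : ∀ x, x ≠ 0 → 0 < q x x := by
    intro x hx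
    have h0 : ∀ a, 0 ≤ c a * (⟪r a, x⟫ * ⟪r a, x⟫) := fun a =>
      mul_nonneg (hc0 a) (mul_self_nonneg _)
    rw [hqa]
    refine lt_of_le_of_ne (Finset.sum_nonneg fun a _ => h0 a) fun h => hdet.ne' ?_
    have hz := (Finset.sum_eq_zero_iff_of_nonneg fun a _ => h0 a).1 h.symm
    refine Matrix.exists_mulVec_eq_zero_iff.1 ⟨fun i => x i, fun e => hx ?_, ?_⟩
    · ext i; exact congrFun e i
    · rw [hC, Matrix.sum_mulVec]
      refine Finset.sum_eq_zero fun a ha => funext fun i => ?_
      have hxa : ⟪r a, x⟫ = ∑ j, r a j * x j := by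
        rw [PiLp.inner_apply]; simp [mul_comm]
      rcases mul_eq_zero.1 (hz a ha) with h | h
      · simp [h]
      · rw [mul_self_eq_zero, hxa] at h
        rw [Matrix.smul_mulVec, Pi.smul_apply, Matrix.mulVec, dotProduct]
        simp only [Matrix.vecMulVec_apply, mul_assoc, ← Finset.mul_sum, h, mul_zero, smul_zero,
          Pi.zero_apply]
  obtain ⟨T, hT⟩ := exists_frame q hqs hqp
  set O : Matrix (Fin n) (Fin n) ℝ :=
    Matrix.of fun k i => T (EuclideanSpace.basisFun (Fin n) ℝ i) k with hO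
  have hOr : ∀ r : Euc n, (fun i => ∑ k, O k i * r k) =
      fun i => ⟪r, T (EuclideanSpace.basisFun (Fin n) ℝ i)⟫ := fun r => by
    funext i
    rw [PiLp.inner_apply]
    simp [hO, mul_comm]
  have hOC : O.transpose * Matrix.of C₀ * O = 1 := by
    rw [hC, Matrix.mul_sum, Matrix.sum_mul]
    ext i j
    simp only [Matrix.mul_smul, Matrix.smul_mul, transpose_vecMulVec_mul, hOr, Matrix.sum_apply,
      Matrix.smul_apply, Matrix.vecMulVec_apply, smul_eq_mul]
    rw [← hqa, hT, orthonormal_iff_ite.1 (EuclideanSpace.basisFun (Fin n) ℝ).orthonormal, Matrix.one_apply]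
  set b : Y ≃L[ℝ] Euc n := b₀.trans T.symm with hb
  let e := Fintype.equivFin ι
  refine ⟨⟨b, fun s hs => ?_, Fintype.card ι, fun i => c (e.symm i),
    fun i => ContinuousLinearMap.adjoint (T : Euc n →L[ℝ] Euc n) (r (e.symm i)),
    fun i => hc0 _, by rw [e.symm.sum_comp c, hc1], fun i z => ?_, fun x => ?_⟩⟩
  · set s₀ := ContinuousLinearMap.adjoint (T.symm : Euc n →L[ℝ] Euc n) s with hs₀
    have hs₀K : s₀ ∈ K₀ := fun z => by
      rw [hs₀, ContinuousLinearMap.adjoint_inner_left]
      exact hs z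
    have hs₀T : ∀ x, ⟪s₀, T x⟫ = ⟪s, x⟫ := fun x => by
      rw [hs₀, ContinuousLinearMap.adjoint_inner_left]
      simp
    have hns : ‖s‖ ^ 2 = ∑ i, s i ^ 2 := by
      rw [EuclideanSpace.norm_sq_eq]; simp
    rw [hns]
    refine le_of_det_update hn (Finset.sum_nonneg fun i _ => sq_nonneg _) fun t ht0 ht1 => ?_
    rw [← det_update_one (fun i => s i) ht1]
    have hin : (1 - t) • C₀ + t • rk s₀ ∈ P :=
      convex_convexHull ℝ _ hC₀ (subset_convexHull ℝ _ (Set.mem_image_of_mem rk hs₀K))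
        (by linarith) ht0.le (by ring)
    have h1 : (Matrix.of ((1 - t) • C₀ + t • rk s₀)).det ≤ (Matrix.of C₀).det := hmax hin
    have h2 : O.det * O.det * (Matrix.of C₀).det = 1 := by
      have := congrArg Matrix.det hOC
      rw [Matrix.det_mul, Matrix.det_mul, Matrix.det_transpose, Matrix.det_one] at this
      linarith
    have h3 : O.transpose * Matrix.of ((1 - t) • C₀ + t • rk s₀) * O =
        (1 - t) • (1 : Matrix (Fin n) (Fin n) ℝ) +
          t • Matrix.vecMulVec (fun i => s i) (fun i => s i) := by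
      rw [show Matrix.of ((1 - t) • C₀ + t • rk s₀) =
        (1 - t) • Matrix.of C₀ + t • Matrix.vecMulVec (s₀ : Fin n → ℝ) s₀ from rfl,
        Matrix.mul_add, Matrix.add_mul, Matrix.mul_smul, Matrix.smul_mul, hOC, Matrix.mul_smul,
        Matrix.smul_mul, transpose_vecMulVec_mul, hOr]
      congr 3 <;>
      · funext i
        rw [hs₀T, real_inner_comm, EuclideanSpace.basisFun_inner]
    have h4 := congrArg Matrix.det h3
    rw [Matrix.det_mul, Matrix.det_mul, Matrix.det_transpose] at h4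
    rw [← h4]
    nlinarith [mul_le_mul_of_nonneg_left h1 (mul_self_nonneg O.det)]
  · rw [ContinuousLinearMap.adjoint_inner_left, abs_le]
    have h1 := hr (e.symm i) z
    have h2 := hr (e.symm i) (-z)
    rw [map_neg, inner_neg_right, norm_neg] at h2
    simp only [hb, ContinuousLinearEquiv.trans_apply, ContinuousLinearEquiv.coe_coe,
      T.apply_symm_apply]
    constructor <;> linarith
  · refine ext_inner_right ℝ fun y => ?_
    rw [e.symm.sum_comp fun a =>
      (c a * ⟪ContinuousLinearMap.adjoint (T : Euc n →L[ℝ] Euc n) (r a), x⟫) •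
        ContinuousLinearMap.adjoint (T : Euc n →L[ℝ] Euc n) (r a), sum_inner]
    simp only [real_inner_smul_left, ContinuousLinearMap.adjoint_inner_left,
      ContinuousLinearEquiv.coe_coe, mul_assoc]
    rw [← hqa, hT]

end Vale.Agent.P084
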