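import Vale.Agent.P084.Strict.PointLip

/-!
P084 (Tingley's problem), library for finite-dimensional spaces: a Lipschitz map that agrees with
a bi-Lipschitz homeomorphism off a compact set has at least the volume of the image as total
Jacobian (a Milnor type polynomial argument), and Lipschitz maps with a contracting derivative
almost everywhere on a convex set are contractions there.
-/

namespace Vale.Agent.P084

open Filter Topology Metric MeasureTheory
open scoped NNReal ENNReal

section Volume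

variable {E : Type*} [NormedAddCommGroup E] [NormedSpace ℝ E] [FiniteDimensional ℝ E]

omit [FiniteDimensional ℝ E] in
/-- Derivatives of maps expanding distances are injective. -/
lemma deriv_lower {h : E → E} {κ : ℝ} (hh : ∀ a b, ‖a - b‖ ≤ κ * ‖h a - h b‖) {w : E}
    {L : E →L[ℝ] E} (hd : HasFDerivAt h L w) (z : E) : ‖z‖ ≤ κ * ‖L z‖ := by
  have hl : HasDerivAt (fun t : ℝ => w + t • z) z 0 := by
    simpa using ((hasDerivAt_id (0 : ℝ)).smul_const z).const_add w
  have h1 := (hd.comp_hasDerivAt_of_eq 0 hl (by simp)).tendsto_slope_zero.norm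
  refine le_of_tendsto_of_tendsto hl.tendsto_slope_zero.norm (h1.const_mul κ)
    (Eventually.of_forall fun t => ?_)
  simp only [Function.comp_apply, norm_smul]
  rw [mul_left_comm]
  exact mul_le_mul_of_nonneg_left (hh _ _) (norm_nonneg _)

/-- The determinant of an affine pencil is a polynomial of degree at most the dimension. -/
lemma exists_det_poly (A B : E →L[ℝ] E) :
    ∃ p : Polynomial ℝ, p.degree < ((Module.finrank ℝ E + 1 : ℕ) : WithBot ℕ) ∧
      ∀ t : ℝ, p.eval t = (A + t • B).det := by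
  let b := Module.finBasis ℝ E
  set MA := LinearMap.toMatrix b b (A : E →ₗ[ℝ] E)
  set MB := LinearMap.toMatrix b b (B : E →ₗ[ℝ] E)
  refine ⟨((Polynomial.X : Polynomial ℝ) • MB.map Polynomial.C + MA.map Polynomial.C).det, ?_, ?_⟩
  · refine lt_of_le_of_lt Polynomial.degree_le_natDegree ?_
    have := Polynomial.natDegree_det_X_add_C_le MB MA
    rw [Fintype.card_fin] at this
    exact_mod_cast Nat.lt_succ_of_le this
  · intro t
    rw [← Polynomial.coe_evalRingHom, RingHom.map_det, ContinuousLinearMap.det,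
      ← LinearMap.det_toMatrix b]
    congr 1
    ext i j
    simp only [RingHom.mapMatrix_apply, Matrix.map_apply, Matrix.add_apply, Matrix.smul_apply,
      smul_eq_mul, map_add, map_mul, Polynomial.coe_evalRingHom, Polynomial.eval_add,
      Polynomial.eval_mul, Polynomial.eval_X, Polynomial.eval_C, MA, MB, LinearMap.toMatrix_apply,
      ContinuousLinearMap.coe_coe, add_apply, smul_apply, Finsupp.add_apply, map_smul,
      Finsupp.smul_apply]
    exact add_comm _ _

variable [MeasurableSpace E] [BorelSpace E]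

/-- The total Jacobian of a compactly supported perturbation is at least the image volume. -/
theorem measure_image_le {H φ : E → E} {K : Set E} {C C' D : ℝ≥0} (hK : IsCompact K)
    (hH : LipschitzWith C H) (hH' : AntilipschitzWith C' H) (hsurj : Function.Surjective H)
    (hφ : LipschitzWith D φ) (hoff : ∀ w, w ∉ K → φ w = 0) :
    vol E (H '' K) ≤ ∫⁻ w in K, ENNReal.ofReal |(fderiv ℝ (H + φ) w).det| ∂(vol E) := by
  classical
  have : CompleteSpace E := FiniteDimensional.complete ℝ E
  set n := Module.finrank ℝ E with hn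
  set μ := vol E with hμ
  obtain ⟨Hi, hHi⟩ := hsurj.hasRightInverse
  have hHiL : LipschitzWith C' Hi := hH'.to_rightInverse hHi
  have hinj := hH'.injective
  set t₀ : ℝ := 1 / (2 * ((C' : ℝ) * D + 1)) with ht₀
  have ht₀0 : 0 < t₀ := by positivity
  set g : ℝ → E → E := fun t w => H w + t • φ w with hg
  have hsmall : ∀ t, |t| ≤ t₀ → |t| * ((C' : ℝ) * D) ≤ 1 / 2 := fun t ht => by
    have h1 : t₀ * (2 * ((C' : ℝ) * D + 1)) = 1 := by rw [ht₀]; field_simp
    have h2 := mul_le_mul_of_nonneg_right ht (show (0 : ℝ) ≤ (C' : ℝ) * D by positivity)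
    linarith
  have hexp : ∀ t, |t| ≤ t₀ → ∀ a b, ‖a - b‖ ≤ 2 * C' * ‖g t a - g t b‖ := by
    intro t ht a b
    have h1 : ‖a - b‖ ≤ C' * ‖H a - H b‖ := by
      simpa [dist_eq_norm] using hH'.le_mul_dist a b
    have h2 : ‖φ a - φ b‖ ≤ D * ‖a - b‖ := by
      simpa [dist_eq_norm] using hφ.dist_le_mul a b
    have h3 : ‖H a - H b‖ ≤ ‖g t a - g t b‖ + |t| * (D * ‖a - b‖) := by
      rw [show H a - H b = (g t a - g t b) - t • (φ a - φ b) by simp only [hg]; module]
      refine (norm_sub_le _ _).trans (add_le_add le_rfl ?_)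
      rw [norm_smul, Real.norm_eq_abs]
      exact mul_le_mul_of_nonneg_left h2 (abs_nonneg _)
    have h4 := h1.trans (mul_le_mul_of_nonneg_left h3 C'.2)
    have h5 := mul_le_mul_of_nonneg_right (hsmall t ht) (norm_nonneg (a - b))
    nlinarith
  have hgi : ∀ t, |t| ≤ t₀ → Function.Injective (g t) := fun t ht a b e => by
    have := hexp t ht a b
    rw [e, sub_self, norm_zero, mul_zero] at this
    exact sub_eq_zero.1 (norm_le_zero_iff.1 this)
  have hgs : ∀ t, |t| ≤ t₀ → Function.Surjective (g t) := by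
    intro t ht z
    have hc : ContractingWith (1 / 2 : ℝ≥0) (fun x => z - t • φ (Hi x)) := by
      refine ⟨by norm_num, LipschitzWith.of_dist_le_mul fun a b => ?_⟩
      rw [dist_eq_norm, dist_eq_norm,
        show z - t • φ (Hi a) - (z - t • φ (Hi b)) = t • (φ (Hi b) - φ (Hi a)) by module,
        norm_smul, Real.norm_eq_abs]
      have h1 : ‖φ (Hi b) - φ (Hi a)‖ ≤ D * ‖Hi b - Hi a‖ := by
        simpa [dist_eq_norm] using hφ.dist_le_mul (Hi b) (Hi a)
      have h2 : ‖Hi b - Hi a‖ ≤ C' * ‖a - b‖ := by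
        rw [norm_sub_rev a b]
        simpa [dist_eq_norm] using hHiL.dist_le_mul b a
      have h3 := mul_le_mul_of_nonneg_left (h1.trans (mul_le_mul_of_nonneg_left h2 D.2))
        (abs_nonneg t)
      have h4 := mul_le_mul_of_nonneg_right (hsmall t ht) (norm_nonneg (a - b))
      push_cast
      nlinarith
    refine ⟨Hi (ContractingWith.fixedPoint _ hc), ?_⟩
    have h1 : z - t • φ (Hi (ContractingWith.fixedPoint _ hc)) = ContractingWith.fixedPoint _ hc :=
      hc.fixedPoint_isFixedPt
    show H (Hi _) + _ = z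
    rw [hHi, ← eq_sub_iff_add_eq, h1]
  have himg : ∀ t, |t| ≤ t₀ → g t '' K = H '' K := by
    intro t ht
    have hout : ∀ w, w ∉ K → g t w = H w := fun w hw => by simp [hg, hoff w hw]
    refine Set.Subset.antisymm ?_ ?_
    · rintro _ ⟨w, hw, rfl⟩
      by_contra hcon
      obtain ⟨w₀, hw₀⟩ := hsurj (g t w)
      have hw₀K : w₀ ∉ K := fun h => hcon ⟨w₀, h, hw₀⟩
      exact hw₀K (hgi t ht ((hout w₀ hw₀K).trans hw₀) ▸ hw)
    · rintro _ ⟨w₀, hw₀, rfl⟩
      obtain ⟨w, hw⟩ := hgs t ht (H w₀)
      refine ⟨w, ?_, hw⟩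
      by_contra hwK
      rw [hout w hwK] at hw
      exact hwK (hinj hw ▸ hw₀)
  -- the set where both maps are differentiable
  set K' := K ∩ ({w | DifferentiableAt ℝ H w} ∩ {w | DifferentiableAt ℝ φ w}) with hK'
  have hK'm : MeasurableSet K' :=
    hK.measurableSet.inter ((measurableSet_of_differentiableAt ℝ H).inter
      (measurableSet_of_differentiableAt ℝ φ))
  have hnull : μ (K \ K') = 0 := by
    refine measure_mono_null (t := {w | ¬DifferentiableAt ℝ H w} ∪ {w | ¬DifferentiableAt ℝ φ w})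
      ?_ (measure_union_null (ae_iff.1 (hH.ae_differentiableAt (μ := μ)))
        (ae_iff.1 (hφ.ae_differentiableAt (μ := μ))))
    rintro w ⟨hw, hw'⟩
    by_contra hcon
    simp only [Set.mem_union, Set.mem_setOf_eq, not_or, not_not] at hcon
    exact hw' ⟨hw, hcon⟩
  have hKK' : K' =ᵐ[μ] K :=
    ((ae_le_set.2 (by
      rw [Set.diff_eq_empty.2 Set.inter_subset_left, measure_empty] : μ (K' \ K) = 0)).antisymm
      (ae_le_set.2 hnull))
  set A : E → E →L[ℝ] E := fun w => fderiv ℝ H w with hA
  set B : E → E →L[ℝ] E := fun w => fderiv ℝ φ w with hB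
  set s : E → ℝ := fun w => if 0 ≤ (A w).det then 1 else -1 with hs
  set f : ℝ → E → ℝ := fun t w => s w * (A w + t • B w).det with hf
  have hdg : ∀ t w, w ∈ K' → HasFDerivAt (g t) (A w + t • B w) w := fun t w hw =>
    hw.2.1.hasFDerivAt.add (hw.2.2.hasFDerivAt.const_smul t)
  have hsign : ∀ t, |t| ≤ t₀ → ∀ w ∈ K', f t w = |(A w + t • B w).det| := by
    intro t ht w hw
    have hne : ∀ u, |u| ≤ t₀ → (A w + u • B w).det ≠ 0 := fun u hu h0 => by
      obtain ⟨z, hz, hz0⟩ := Submodule.exists_mem_ne_zero_of_ne_bot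
        (ne_of_gt (LinearMap.bot_lt_ker_of_det_eq_zero h0))
      have := deriv_lower (hexp u hu) (hdg u w hw) z
      rw [show (A w + u • B w) z = 0 from LinearMap.mem_ker.1 hz, norm_zero, mul_zero] at this
      exact hz0 (norm_le_zero_iff.1 this)
    have hc : Continuous fun u : ℝ => (A w + u • B w).det :=
      ContinuousLinearMap.continuous_det.comp (by fun_prop)
    have hpos : 0 ≤ (A w).det ↔ 0 ≤ (A w + t • B w).det := by
      by_contra hcon
      have h0 : (0 : ℝ) ∈ Set.uIcc (A w + (0 : ℝ) • B w).det (A w + t • B w).det := by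
        rw [zero_smul, add_zero, Set.mem_uIcc]
        rcases le_total 0 (A w).det with h | h
        · exact Or.inr ⟨le_of_not_ge fun h' => hcon (iff_of_true h h'), h⟩
        · rcases le_total 0 (A w + t • B w).det with h' | h'
          · exact Or.inl ⟨h, h'⟩
          · refine absurd ?_ hcon
            have e1 := hne t ht
            have e2 := hne 0 (by simpa using ht₀0.le)
            rw [zero_smul, add_zero] at e2
            exact iff_of_false (fun k => e2 (le_antisymm h k)) (fun k => e1 (le_antisymm h' k))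
      obtain ⟨u, hu, hu0⟩ := intermediate_value_uIcc hc.continuousOn h0
      refine hne u ?_ hu0
      rcases Set.mem_uIcc.1 hu with ⟨h1, h2⟩ | ⟨h1, h2⟩ <;>
        (rw [abs_le]; rw [abs_le] at ht; constructor <;> linarith)
    simp only [hf, hs]
    split_ifs with h
    · rw [one_mul, abs_of_nonneg (hpos.1 h)]
    · rw [abs_of_nonpos (le_of_not_ge fun h' => h (hpos.2 h')), neg_one_mul]
  have hsm : Measurable s := by
    refine Measurable.ite ?_ measurable_const measurable_const
    exact measurableSet_le measurable_const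
      (ContinuousLinearMap.continuous_det.measurable.comp (measurable_fderiv ℝ H))
  have hfm : ∀ t, Measurable (f t) := fun t => by
    refine hsm.mul (ContinuousLinearMap.continuous_det.measurable.comp ?_)
    exact (measurable_fderiv ℝ H).add ((measurable_fderiv ℝ φ).const_smul t)
  have hfi : ∀ t, IntegrableOn (f t) K μ := fun t => by
    obtain ⟨Bd, hBd⟩ := (isCompact_closedBall (0 : E →L[ℝ] E) (C + |t| * D)).exists_bound_of_continuousOn
      (f := fun L : E →L[ℝ] E => L.det) ContinuousLinearMap.continuous_det.continuousOn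
    refine IntegrableOn.of_bound hK.measure_lt_top (hfm t).aestronglyMeasurable Bd
      (Eventually.of_forall fun w => ?_)
    have h1 : ‖s w‖ = 1 := by
      rw [hs]; dsimp only; split_ifs <;> simp
    simp only [hf, norm_mul, h1, one_mul]
    refine hBd _ (mem_closedBall_zero_iff.2 ((norm_add_le (A w) (t • B w)).trans ?_))
    rw [norm_smul, Real.norm_eq_abs]
    gcongr
    · exact norm_fderiv_le_of_lipschitz ℝ hH
    · exact norm_fderiv_le_of_lipschitz ℝ hφ
  have hval : ∀ t, |t| ≤ t₀ → ∫ w in K, f t w ∂μ = (μ (H '' K)).toReal := by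
    intro t ht
    have hlip : LipschitzWith (C + ‖t‖₊ * D) (g t) := hH.add ((lipschitzWith_smul t).comp hφ)
    have h1 : μ (g t '' K) = μ (g t '' K') := by
      refine le_antisymm ?_ (measure_mono (Set.image_mono Set.inter_subset_left))
      calc μ (g t '' K) ≤ μ (g t '' K' ∪ g t '' (K \ K')) := by
            refine measure_mono ?_
            rw [← Set.image_union]
            exact Set.image_mono (by intro w hw; by_cases h : w ∈ K' <;> simp [h, hw])
        _ ≤ μ (g t '' K') + μ (g t '' (K \ K')) := measure_union_le _ _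
        _ = μ (g t '' K') := by
            rw [hμ, vol_image_eq_zero rfl hlip.lipschitzOnWith hnull, add_zero]
    have h2 : (∫⁻ w in K', ENNReal.ofReal (f t w) ∂μ) = μ (g t '' K') := by
      rw [← lintegral_abs_det_fderiv_eq_addHaar_image μ hK'm
        (f' := fun w => A w + t • B w) (fun w hw => (hdg t w hw).hasFDerivWithinAt)
        (hgi t ht).injOn]
      exact setLIntegral_congr_fun hK'm fun w hw => by rw [hsign t ht w hw]
    rw [setLIntegral_congr hKK', ← h1, himg t ht] at h2
    rw [← h2, ← ofReal_integral_eq_lintegral_ofReal (hfi t) ?_, ENNReal.toReal_ofReal ?_]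
    · refine integral_nonneg_of_ae ?_
      rw [← Measure.restrict_congr_set hKK']
      exact (ae_restrict_mem hK'm).mono fun w hw => by
        simp only [Pi.zero_apply, hsign t ht w hw]; exact abs_nonneg _
    · rw [← Measure.restrict_congr_set hKK']
      exact (ae_restrict_mem hK'm).mono fun w hw => by
        simp only [Pi.zero_apply, hsign t ht w hw]; exact abs_nonneg _
  -- interpolation
  set nodes : ℕ → ℝ := fun k => t₀ * k / (n + 1) with hnodes
  have hnb : ∀ k ∈ Finset.range (n + 1), |nodes k| ≤ t₀ := fun k hk => by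
    rw [Finset.mem_range] at hk
    have hk' : (k : ℝ) ≤ n + 1 := by exact_mod_cast hk.le
    rw [hnodes, abs_of_nonneg (by positivity), div_le_iff₀ (by positivity)]
    exact mul_le_mul_of_nonneg_left hk' ht₀0.le
  have hinj' : Set.InjOn nodes (Finset.range (n + 1) : Set ℕ) := fun a _ b _ e => by
    simp only [hnodes, div_left_inj' (show ((n : ℝ) + 1) ≠ 0 by positivity),
      mul_right_inj' ht₀0.ne', Nat.cast_inj] at e
    exact e
  set ℓ : ℕ → ℝ := fun k => (Lagrange.basis (Finset.range (n + 1)) nodes k).eval 1 with hℓ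
  have hℓ1 : ∑ k ∈ Finset.range (n + 1), ℓ k = 1 := by
    rw [hℓ, ← Polynomial.eval_finsetSum, Lagrange.sum_basis hinj' ⟨0, by simp⟩,
      Polynomial.eval_one]
  have hf1 : ∀ w, f 1 w = ∑ k ∈ Finset.range (n + 1), ℓ k * f (nodes k) w := fun w => by
    obtain ⟨p, hp, hpe⟩ := exists_det_poly (A w) (B w)
    have h := Lagrange.eq_interpolate hinj' (f := p) (by rwa [Finset.card_range])
    simp only [hf, ← hpe]
    conv_lhs => rw [h, Lagrange.interpolate_apply, Polynomial.eval_finsetSum, Finset.mul_sum]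
    refine Finset.sum_congr rfl fun k _ => ?_
    simp only [Polynomial.eval_mul, Polynomial.eval_C, hℓ]
    ring
  have hint : ∫ w in K, f 1 w ∂μ = (μ (H '' K)).toReal := by
    simp only [hf1]
    rw [integral_finsetSum _ fun k _ => (hfi (nodes k)).const_mul (ℓ k)]
    simp only [integral_const_mul]
    rw [Finset.sum_congr rfl fun k hk => by rw [hval (nodes k) (hnb k hk)], ← Finset.sum_mul, hℓ1,
      one_mul]
  have hfin : μ (H '' K) ≠ ∞ := (hK.image hH.continuous).measure_lt_top.ne
  rw [← ENNReal.ofReal_toReal hfin, ← hint]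
  refine (ENNReal.ofReal_le_ofReal ((le_abs_self _).trans
    (abs_integral_le_integral_abs (f := f 1)))).trans ?_
  rw [ofReal_integral_eq_lintegral_ofReal (Integrable.abs (hfi 1))
    (Eventually.of_forall fun w => abs_nonneg _)]
  rw [← setLIntegral_congr hKK', ← setLIntegral_congr hKK']
  refine le_of_eq (setLIntegral_congr_fun hK'm fun w hw => ?_)
  have e : fderiv ℝ (H + φ) w = A w + (1 : ℝ) • B w := by
    rw [one_smul]
    exact (hw.2.1.hasFDerivAt.add hw.2.2.hasFDerivAt).fderiv
  have h1 : |s w| = 1 := by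
    rw [hs]; dsimp only; split_ifs <;> simp
  rw [e]
  simp only [hf, abs_mul, h1, one_mul]

/-- A contracting derivative almost everywhere on a convex set gives a contraction. -/
theorem norm_sub_le_of_ae {F : E → E} {C : ℝ≥0} (hF : LipschitzWith C F) {O : Set E}
    (hO : IsOpen O) (hOc : Convex ℝ O)
    (hae : ∀ᵐ w ∂(vol E), w ∈ O → ‖fderiv ℝ F w‖ ≤ 1) {a b : E} (ha : a ∈ closure O)
    (hb : b ∈ closure O) : ‖F b - F a‖ ≤ ‖b - a‖ := by
  have hclosed : IsClosed {p : E × E | ‖F p.2 - F p.1‖ ≤ ‖p.2 - p.1‖} :=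
    isClosed_le ((hF.continuous.comp continuous_snd).sub (hF.continuous.comp continuous_fst)).norm
      (continuous_snd.sub continuous_fst).norm
  suffices h : O ×ˢ O ⊆ {p : E × E | ‖F p.2 - F p.1‖ ≤ ‖p.2 - p.1‖} by
    have := hclosed.closure_subset_iff.2 h
    rw [closure_prod_eq] at this
    exact this (Set.mk_mem_prod ha hb)
  rintro ⟨p, q⟩ ⟨hp, hq⟩
  rw [Set.mem_setOf_eq]
  set w := q - p with hw
  set Z := toMeasurable (vol E)
    {x | ¬(x ∈ O → ‖fderiv ℝ F x‖ ≤ 1) ∨ ¬DifferentiableAt ℝ F x} with hZ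
  have hZ0 : vol E Z = 0 := by
    rw [hZ, measure_toMeasurable]
    exact measure_union_null (ae_iff.1 hae) (ae_iff.1 (hF.ae_differentiableAt (μ := vol E)))
  have hgood : ∀ x ∈ O, x ∉ Z → DifferentiableAt ℝ F x ∧ ‖fderiv ℝ F x‖ ≤ 1 := fun x hx hxZ => by
    have := fun h => hxZ (subset_toMeasurable _ _ h)
    simp only [Set.mem_setOf_eq, not_or, not_not] at this
    exact ⟨Classical.byContradiction fun h => this (Or.inr h), Classical.byContradiction
      fun h => this (Or.inl fun h' => h (h' hx))⟩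
  have hmeas : MeasurableSet {r : E × ℝ | p + r.1 + r.2 • w ∈ Zᶜ} :=
    (show Continuous fun r : E × ℝ => p + r.1 + r.2 • w by fun_prop).measurable
      (measurableSet_toMeasurable _ _).compl
  have hswap : ∀ᵐ h ∂(vol E), ∀ᵐ t : ℝ, p + h + t • w ∈ Zᶜ := by
    rw [Measure.ae_ae_comm (p := fun h t => p + h + t • w ∈ Zᶜ) hmeas]
    refine Eventually.of_forall fun t => ?_
    rw [ae_iff]
    simp only [Set.mem_compl_iff, not_not]
    rw [show {h : E | p + h + t • w ∈ Z} = (fun h => (p + t • w) + h) ⁻¹' Z by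
      ext h; simp [add_right_comm], measure_preimage_add]
    exact hZ0
  have hd := Measure.dense_of_ae hswap
  refine le_of_forall_pos_le_add fun e he => ?_
  obtain ⟨r₁, hr₁, hb₁⟩ := Metric.isOpen_iff.1 hO p hp
  obtain ⟨r₂, hr₂, hb₂⟩ := Metric.isOpen_iff.1 hO q hq
  set τ := min (min r₁ r₂) (e / (2 * ((C : ℝ) + 1))) with hτ
  have hτ0 : 0 < τ := lt_min (lt_min hr₁ hr₂) (by positivity)
  obtain ⟨h, hgoodh, hh⟩ := hd.exists_mem_open (isOpen_ball (x := (0 : E)) (ε := τ))
    ⟨0, mem_ball_self hτ0⟩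
  rw [mem_ball_zero_iff] at hh
  have hph : p + h ∈ O := hb₁ (by
    rw [mem_ball_iff_norm, add_sub_cancel_left]
    exact hh.trans_le ((min_le_left _ _).trans (min_le_left _ _)))
  have hqh : q + h ∈ O := hb₂ (by
    rw [mem_ball_iff_norm, add_sub_cancel_left]
    exact hh.trans_le ((min_le_left _ _).trans (min_le_right _ _)))
  have hin : ∀ t ∈ Set.Icc (0 : ℝ) 1, p + h + t • w ∈ O := fun t ht => by
    have := hOc hph hqh (a := 1 - t) (b := t) (by linarith [ht.2]) ht.1 (by ring)
    convert this using 1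
    rw [hw]; module
  obtain ⟨ψ, hψ1, hψ2⟩ := exists_dual_vector'' ℝ (F (q + h) - F (p + h))
  set θ : ℝ → ℝ := fun t => ψ (F (p + h + t • w)) with hθ
  have hθlip : LipschitzWith (‖ψ‖₊ * C * ‖w‖₊) θ := by
    refine LipschitzWith.of_dist_le_mul fun x y => ?_
    rw [dist_eq_norm, dist_eq_norm, hθ, ← map_sub]
    refine (ψ.le_opNorm _).trans ?_
    rw [NNReal.coe_mul, NNReal.coe_mul, coe_nnnorm, coe_nnnorm, mul_assoc, mul_assoc]
    refine mul_le_mul_of_nonneg_left ?_ (norm_nonneg _)
    have := hF.dist_le_mul (p + h + x • w) (p + h + y • w)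
    rw [dist_eq_norm, dist_eq_norm,
      show p + h + x • w - (p + h + y • w) = (x - y) • w by module, norm_smul] at this
    rw [mul_comm ‖w‖]
    exact this
  have hder : ∀ᵐ t : ℝ, t ∈ Set.uIoc (0 : ℝ) 1 → ‖deriv θ t‖ ≤ ‖w‖ := by
    filter_upwards [hgoodh] with t ht hti
    rw [Set.uIoc_of_le zero_le_one] at hti
    obtain ⟨hd, hn⟩ := hgood _ (hin t ⟨hti.1.le, hti.2⟩) ht
    have hl : HasDerivAt (fun t : ℝ => p + h + t • w) w t := by
      simpa using ((hasDerivAt_id t).smul_const w).const_add (p + h)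
    have h1 : HasDerivAt θ (ψ (fderiv ℝ F (p + h + t • w) w)) t :=
      ψ.hasFDerivAt.comp_hasDerivAt t (hd.hasFDerivAt.comp_hasDerivAt t hl)
    rw [h1.deriv]
    refine (ψ.le_of_opNorm_le hψ1 _).trans ?_
    rw [one_mul]
    exact ((fderiv ℝ F _).le_of_opNorm_le hn w).trans_eq (one_mul _)
  have hint : |θ 1 - θ 0| ≤ ‖w‖ := by
    rw [← (hθlip.lipschitzOnWith.absolutelyContinuousOnInterval).integral_deriv_eq_sub,
      ← Real.norm_eq_abs]
    simpa using intervalIntegral.norm_integral_le_of_norm_le_const_ae hder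
  have hval : θ 1 - θ 0 = ‖F (q + h) - F (p + h)‖ := by
    rw [hθ]
    simp only [one_smul, zero_smul, add_zero, hw, ← map_sub]
    rw [show p + h + (q - p) = q + h by abel]
    exact hψ2
  rw [hval, abs_norm] at hint
  have h1 : ‖F (q + h) - F q‖ ≤ C * ‖h‖ := by
    simpa [dist_eq_norm] using hF.dist_le_mul (q + h) q
  have h2 : ‖F (p + h) - F p‖ ≤ C * ‖h‖ := by
    simpa [dist_eq_norm] using hF.dist_le_mul (p + h) p
  have h3 : (C : ℝ) * ‖h‖ ≤ C * (e / (2 * ((C : ℝ) + 1))) :=
    mul_le_mul_of_nonneg_left (hh.le.trans (min_le_right _ _)) C.2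
  have h4 : (C : ℝ) * (e / (2 * ((C : ℝ) + 1))) ≤ e / 2 := by
    rw [mul_div_assoc', div_le_div_iff₀ (by positivity) two_pos]
    nlinarith [C.2]
  show ‖F q - F p‖ ≤ ‖w‖ + e
  rw [show F q - F p = (F (q + h) - F (p + h)) - (F (q + h) - F q) + (F (p + h) - F p) by abel]
  refine (norm_add_le _ _).trans ((add_le_add (norm_sub_le _ _) le_rfl).trans ?_)
  linarith

end Volume

end Vale.Agent.P084
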