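import Vale.Agent.P084.Fin.John
import Vale.Agent.P084.Fin.Volume
import Vale.Agent.P084.Main

/-!
P084 (Tingley's problem): every finite-dimensional normed space has the Mazur–Ulam property.

In John coordinates on both sides the McShane extensions of the coordinate functionals give a
Lipschitz extension of the inverse map into the ball whose Jacobian is at most one, and whose
total Jacobian is at least the volume of the image; so its derivative is orthogonal almost
everywhere and the sphere map is a Euclidean isometry, hence the restriction of a linear map.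
-/

namespace Vale.Agent.P084

open Filter Topology Metric MeasureTheory
open scoped NNReal ENNReal RealInnerProductSpace

/-- An operator whose squared Hilbert-Schmidt norm is at most the dimension has determinant at
most one in absolute value, with equality only for contractions. -/
lemma det_bound {n : ℕ} (D : Euc n →L[ℝ] Euc n)
    (h : ∑ j, ‖D (EuclideanSpace.basisFun (Fin n) ℝ j)‖ ^ 2 ≤ n) :
    |D.det| ≤ 1 ∧ (|D.det| = 1 → ‖D‖ ≤ 1) := by
  classical
  set e := EuclideanSpace.basisFun (Fin n) ℝ with he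
  set L : Euc n →ₗ[ℝ] Euc n := (D : Euc n →ₗ[ℝ] Euc n) with hL
  set T := LinearMap.adjoint L ∘ₗ L with hT
  have hsym : T.IsSymmetric := fun x y => by
    simp [hT, LinearMap.adjoint_inner_left, LinearMap.adjoint_inner_right]
  have hquad : ∀ z, ⟪z, T z⟫ = ‖D z‖ ^ 2 := fun z => by
    simp [hT, LinearMap.adjoint_inner_right, hL]
  have hn : Module.finrank ℝ (Euc n) = n := finrank_euclideanSpace_fin
  set lam := hsym.eigenvalues hn with hlam
  have hlam0 : ∀ i, 0 ≤ lam i := fun i => by
    have h1 := hquad (hsym.eigenvectorBasis hn i)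
    rw [hsym.apply_eigenvectorBasis hn i, real_inner_smul_right, real_inner_self_eq_norm_sq,
      (hsym.eigenvectorBasis hn).orthonormal.1 i] at h1
    simp only [RCLike.ofReal_real_eq_id, id, one_pow, mul_one] at h1
    rw [hlam, h1]
    positivity
  have hsum : ∑ i, lam i ≤ n := by
    have h1 := LinearMap.IsSymmetric.trace_eq_sum_eigenvalues hn hsym
    rw [LinearMap.trace_eq_sum_inner T e] at h1
    simp only [hquad] at h1
    simp only [RCLike.ofReal_real_eq_id, id] at h1
    exact (le_of_eq h1.symm).trans h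
  have hdet : D.det * D.det = ∏ i, lam i := by
    have h1 := hsym.det_eq_prod_eigenvalues hn
    simp only [RCLike.ofReal_real_eq_id, id] at h1
    rw [hlam, ← h1, hT, LinearMap.det_comp]
    have hadj : LinearMap.det (LinearMap.adjoint L) = LinearMap.det L := by
      rw [← LinearMap.det_toMatrix e.toBasis, LinearMap.toMatrix_adjoint, Matrix.det_conjTranspose,
        LinearMap.det_toMatrix]
      simp
    rw [hadj]
  by_cases hz : ∃ i, lam i = 0
  · obtain ⟨i, hi⟩ := hz
    rw [Finset.prod_eq_zero (Finset.mem_univ i) hi] at hdet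
    have h0 : D.det = 0 := mul_self_eq_zero.1 hdet
    refine ⟨by rw [h0, abs_zero]; exact zero_le_one, fun h1 => ?_⟩
    rw [h0, abs_zero] at h1
    exact absurd h1 zero_ne_one
  push Not at hz
  have hpos : ∀ i, 0 < lam i := fun i => lt_of_le_of_ne (hlam0 i) (hz i).symm
  have hlog : Real.log (∏ i, lam i) = ∑ i, Real.log (lam i) :=
    Real.log_prod fun i _ => hz i
  have hle : ∑ i, Real.log (lam i) ≤ ∑ i, (lam i - 1) :=
    Finset.sum_le_sum fun i _ => Real.log_le_sub_one_of_pos (hpos i)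
  have hsub : ∑ i, (lam i - 1) ≤ 0 := by
    simp only [Finset.sum_sub_distrib, Finset.sum_const, Finset.card_univ, Fintype.card_fin,
      nsmul_eq_mul, mul_one]
    linarith
  have hP : 0 < ∏ i, lam i := Finset.prod_pos fun i _ => hpos i
  have hP1 : ∏ i, lam i ≤ 1 := (Real.log_nonpos_iff hP.le).1 (by linarith)
  refine ⟨?_, fun h1 => ?_⟩
  · nlinarith [abs_mul_abs_self D.det, abs_nonneg D.det]
  have hPe : ∏ i, lam i = 1 := by rw [← hdet, ← abs_mul_abs_self, h1, mul_one]
  rw [hPe, Real.log_one] at hlog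
  have heq : ∀ i, lam i = 1 := fun i => by
    by_contra hne
    have hlt : ∑ i, Real.log (lam i) < ∑ i, (lam i - 1) :=
      Finset.sum_lt_sum (fun i _ => Real.log_le_sub_one_of_pos (hpos i))
        ⟨i, Finset.mem_univ i, Real.log_lt_sub_one_of_pos (hpos i) hne⟩
    linarith
  have hid : T = LinearMap.id := by
    refine (hsym.eigenvectorBasis hn).toBasis.ext fun i => ?_
    rw [OrthonormalBasis.coe_toBasis, hsym.apply_eigenvectorBasis hn i, ← hlam, heq i]
    simp
  refine ContinuousLinearMap.opNorm_le_bound _ zero_le_one fun z => ?_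
  have h2 := hquad z
  rw [hid, LinearMap.id_apply, real_inner_self_eq_norm_sq] at h2
  rw [one_mul]
  exact le_of_eq (by nlinarith [norm_nonneg z, norm_nonneg (D z)])

section Retraction

variable {Y : Type*} [NormedAddCommGroup Y] [NormedSpace ℝ Y]

/-- The radial retraction onto the unit ball is Lipschitz. -/
lemma lipschitz_retraction : LipschitzWith 2 fun z : Y => (max 1 ‖z‖)⁻¹ • z := by
  refine LipschitzWith.of_dist_le_mul fun z z' => ?_
  rw [dist_eq_norm, dist_eq_norm]
  set m := max 1 ‖z‖ with hm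
  set m' := max 1 ‖z'‖ with hm'
  have h1 : 1 ≤ m := le_max_left _ _
  have h1' : 1 ≤ m' := le_max_left _ _
  have h2 : ‖z'‖ ≤ m' := le_max_right _ _
  have h3 : |m - m'| ≤ ‖z - z'‖ := by
    refine (abs_max_sub_max_le_max 1 ‖z‖ 1 ‖z'‖).trans ?_
    simp [abs_norm_sub_norm_le]
  rw [show m⁻¹ • z - m'⁻¹ • z' = m⁻¹ • (z - z') + (m⁻¹ - m'⁻¹) • z' by module]
  refine (norm_add_le _ _).trans ?_
  rw [norm_smul, norm_smul, Real.norm_eq_abs, Real.norm_eq_abs, abs_inv,
    abs_of_pos (zero_lt_one.trans_le h1)]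
  have h4 : m⁻¹ * ‖z - z'‖ ≤ ‖z - z'‖ :=
    mul_le_of_le_one_left (norm_nonneg _) (inv_le_one_of_one_le₀ h1)
  have h5 : |m⁻¹ - m'⁻¹| * ‖z'‖ ≤ ‖z - z'‖ := by
    rw [inv_sub_inv (zero_lt_one.trans_le h1).ne' (zero_lt_one.trans_le h1').ne', abs_div,
      abs_of_pos (mul_pos (zero_lt_one.trans_le h1) (zero_lt_one.trans_le h1')), abs_sub_comm,
      div_mul_eq_mul_div, div_le_iff₀ (by positivity)]
    calc |m - m'| * ‖z'‖ ≤ ‖z - z'‖ * (1 * m') := by
          rw [one_mul]; exact mul_le_mul h3 h2 (norm_nonneg _) (norm_nonneg _)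
      _ ≤ ‖z - z'‖ * (m * m') := by gcongr
  norm_num
  linarith

lemma retraction_mem_sphere {z : Y} (hz : 1 ≤ ‖z‖) : ‖(max 1 ‖z‖)⁻¹ • z‖ = 1 := by
  rw [max_eq_right hz, norm_smul, norm_inv, norm_norm,
    inv_mul_cancel₀ (by linarith : ‖z‖ ≠ 0)]

end Retraction

section Extension

variable {X Y : Type*} [NormedAddCommGroup X] [NormedSpace ℝ X] [NormedAddCommGroup Y]
  [NormedSpace ℝ Y] (f : sphere (0 : X) 1 ≃ᵢ sphere (0 : Y) 1)

lemma norm_homExt (v : X) : ‖homExt (fun x => (f x : Y)) v‖ = ‖v‖ := by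
  rcases eq_or_ne v 0 with rfl | hv
  · simp [homExt_zero]
  · simp [homExt, hv, norm_smul]

lemma homExt_symm (v : X) :
    homExt (fun y => (f.symm y : X)) (homExt (fun x => (f x : Y)) v) = v := by
  rcases eq_or_ne v 0 with rfl | hv
  · simp [homExt_zero]
  · set x : sphere (0 : X) 1 := ⟨‖v‖⁻¹ • v, by simp [norm_smul, hv]⟩ with hx
    have e : v = ‖v‖ • (x : X) := by simp [hx, smul_smul, hv]
    conv_lhs => rw [e, homExt_pos_smul _ (norm_pos_iff.2 hv),
      homExt_pos_smul _ (norm_pos_iff.2 hv)]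
    rw [f.symm_apply_apply, ← e]

lemma lipschitz_homExt : LipschitzWith 3 (homExt fun x => (f x : Y)) := by
  refine LipschitzWith.of_dist_le_mul fun v w => ?_
  rw [dist_eq_norm, dist_eq_norm]
  rcases eq_or_ne v 0 with rfl | hv
  · rw [homExt_zero, zero_sub, zero_sub, norm_neg, norm_neg, norm_homExt]
    push_cast
    linarith [norm_nonneg w]
  rcases eq_or_ne w 0 with rfl | hw
  · rw [homExt_zero, sub_zero, sub_zero, norm_homExt]
    push_cast
    linarith [norm_nonneg v]
  set x : sphere (0 : X) 1 := ⟨‖v‖⁻¹ • v, by simp [norm_smul, hv]⟩ with hx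
  set y : sphere (0 : X) 1 := ⟨‖w‖⁻¹ • w, by simp [norm_smul, hw]⟩ with hy
  have ev : v = ‖v‖ • (x : X) := by simp [hx, smul_smul, hv]
  have ew : w = ‖w‖ • (y : X) := by simp [hy, smul_smul, hw]
  have hxy : ‖(f x : Y) - f y‖ = ‖(x : X) - y‖ := by
    have := f.dist_eq x y
    rwa [Subtype.dist_eq, Subtype.dist_eq, dist_eq_norm, dist_eq_norm] at this
  have hy1 : ‖(y : X)‖ = 1 := mem_sphere_zero_iff_norm.1 y.2
  have hfy : ‖(f y : Y)‖ = 1 := mem_sphere_zero_iff_norm.1 (f y).2
  have e1 : homExt (fun x => (f x : Y)) v - homExt (fun x => (f x : Y)) w =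
      ‖v‖ • ((f x : Y) - f y) + (‖v‖ - ‖w‖) • (f y : Y) := by
    conv_lhs => rw [ev, ew, homExt_pos_smul _ (norm_pos_iff.2 hv),
      homExt_pos_smul _ (norm_pos_iff.2 hw)]
    module
  have e2 : ‖v‖ • ((x : X) - y) = (v - w) - (‖v‖ - ‖w‖) • (y : X) := by
    conv_rhs => rw [ev, ew]
    simp only [norm_smul, norm_norm, mem_sphere_zero_iff_norm.1 x.2, hy1, mul_one]
    module
  have h2 : ‖v‖ * ‖(x : X) - y‖ ≤ ‖v - w‖ + |‖v‖ - ‖w‖| := by
    conv_lhs => rw [← norm_norm v, ← norm_smul, e2]
    refine (norm_sub_le _ _).trans ?_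
    rw [norm_smul, hy1, mul_one, Real.norm_eq_abs]
  rw [e1]
  refine (norm_add_le _ _).trans ?_
  rw [norm_smul, norm_smul, norm_norm, hxy, hfy, mul_one, Real.norm_eq_abs]
  push_cast
  linarith [abs_norm_sub_norm_le v w]

include f in
lemma finrank_le_of_sphere [FiniteDimensional ℝ X] [FiniteDimensional ℝ Y] :
    Module.finrank ℝ Y ≤ Module.finrank ℝ X := by
  have h := (lipschitz_homExt f).dimH_range_le
  rw [(Function.RightInverse.surjective (g := homExt fun y => (f.symm y : X)) fun w => by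
    simpa using homExt_symm f.symm w).range_eq, Real.dimH_univ_eq_finrank,
    Real.dimH_univ_eq_finrank] at h
  exact_mod_cast h

end Extension

section OneSide

variable {X Y : Type*} [NormedAddCommGroup X] [NormedSpace ℝ X] [FiniteDimensional ℝ X]
  [NormedAddCommGroup Y] [NormedSpace ℝ Y] [FiniteDimensional ℝ Y] {n : ℕ}

/-- The inverse sphere map does not decrease normalised volume; if the volumes agree, it is a
contraction for the Euclidean structures. -/
theorem john_side (jx : JohnPos X n) (jy : JohnPos Y n)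
    (f : sphere (0 : X) 1 ≃ᵢ sphere (0 : Y) 1) :
    vol (Euc n) (jx.coord '' closedBall 0 1) ≤ vol (Euc n) (jy.coord '' closedBall 0 1) ∧
    (vol (Euc n) (jy.coord '' closedBall 0 1) ≤ vol (Euc n) (jx.coord '' closedBall 0 1) →
      ∀ x x' : sphere (0 : X) 1,
        ‖jx.coord x - jx.coord x'‖ ≤ ‖jy.coord (f x) - jy.coord (f x')‖) := by
  classical
  have : ProperSpace Y := FiniteDimensional.proper_real Y
  letI : MeasurableSpace Y := borel Y
  haveI : BorelSpace Y := ⟨rfl⟩
  set a := jx.coord with ha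
  set b := jy.coord with hb
  set G := homExt fun x => (f x : Y) with hG
  set Hx := homExt fun y => (f.symm y : X) with hHx
  have hHG : ∀ v, Hx (G v) = v := homExt_symm f
  have hGH : ∀ w, G (Hx w) = w := fun w => by simpa using homExt_symm f.symm w
  have hHn : ∀ w, ‖Hx w‖ = ‖w‖ := norm_homExt f.symm
  -- McShane extensions of the coordinates
  have hu : ∀ i, ∃ g : Y → ℝ, LipschitzWith 1 g ∧
      Set.EqOn (fun w => ⟪jx.vec i, a (Hx w)⟫) g (sphere 0 1) := fun i => by
    refine LipschitzOnWith.extend_real (LipschitzOnWith.of_dist_le_mul fun w hw w' hw' => ?_)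
    rw [Real.dist_eq, NNReal.coe_one, one_mul, ← inner_sub_right, ← map_sub]
    refine (jx.vec_le i _).trans (le_of_eq ?_)
    rw [hHx, show w = ((⟨w, hw⟩ : sphere (0 : Y) 1) : Y) from rfl,
      show w' = ((⟨w', hw'⟩ : sphere (0 : Y) 1) : Y) from rfl, homExt_unit, homExt_unit,
      ← dist_eq_norm, ← Subtype.dist_eq, f.symm.dist_eq]
    rfl
  choose u hu hue using hu
  set Φ : Y → Euc n := fun z => ∑ i, (jx.wt i * u i z) • jx.vec i with hΦ
  have hΦS : ∀ z : Y, ‖z‖ = 1 → Φ z = a (Hx z) := fun z hz => by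
    rw [hΦ]
    conv_rhs => rw [← jx.resolution (a (Hx z))]
    exact Finset.sum_congr rfl fun i _ => by rw [← hue i (mem_sphere_zero_iff_norm.2 hz)]
  set DΦ : ℝ := ∑ i, jx.wt i * ‖jx.vec i‖ with hDΦ
  have hΦL : LipschitzWith (Real.toNNReal DΦ) Φ := LipschitzWith.of_dist_le' fun z z' => by
    rw [dist_eq_norm, dist_eq_norm, hΦ, ← Finset.sum_sub_distrib, hDΦ, Finset.sum_mul]
    refine (norm_sum_le _ _).trans (Finset.sum_le_sum fun i _ => ?_)
    rw [← sub_smul, ← mul_sub, norm_smul, norm_mul, Real.norm_of_nonneg (jx.wt_nonneg i),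
      mul_assoc, mul_assoc, mul_comm ‖jx.vec i‖]
    refine mul_le_mul_of_nonneg_left (mul_le_mul_of_nonneg_right ?_ (norm_nonneg _))
      (jx.wt_nonneg i)
    simpa [dist_eq_norm] using (hu i).dist_le_mul z z'
  -- the maps in coordinates
  set H : Euc n → Euc n := fun w => a (Hx (b.symm w)) with hH
  set F : Euc n → Euc n := fun w => Φ (b.symm w) with hF
  set φ : Euc n → Euc n := fun w => Φ ((max 1 ‖b.symm w‖)⁻¹ • b.symm w) -
    a (Hx ((max 1 ‖b.symm w‖)⁻¹ • b.symm w)) with hφ
  set K : Set (Euc n) := b '' closedBall 0 1 with hK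
  set O : Set (Euc n) := b '' ball 0 1 with hO
  have hmemK : ∀ w, w ∈ K ↔ ‖b.symm w‖ ≤ 1 := fun w => by
    rw [hK]
    constructor
    · rintro ⟨z, hz, rfl⟩
      simpa using hz
    · exact fun h => ⟨b.symm w, by simpa using h, b.apply_symm_apply w⟩
  have hmemO : ∀ w, w ∈ O ↔ ‖b.symm w‖ < 1 := fun w => by
    rw [hO]
    constructor
    · rintro ⟨z, hz, rfl⟩
      simpa using hz
    · exact fun h => ⟨b.symm w, by simpa using h, b.apply_symm_apply w⟩
  have hKc : IsCompact K := (isCompact_closedBall (0 : Y) 1).image b.continuous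
  have hOopen : IsOpen O := b.toHomeomorph.isOpenMap _ isOpen_ball
  have hHx3 : LipschitzWith 3 Hx := lipschitz_homExt f.symm
  have hHL := a.lipschitz.comp (hHx3.comp b.symm.lipschitz)
  have hHA : AntilipschitzWith _ H :=
    (b.lipschitz.comp ((lipschitz_homExt f).comp a.symm.lipschitz)).to_rightInverse
      (g := H) (fun w => by
        show b (G (a.symm (a (Hx (b.symm w))))) = w
        rw [a.symm_apply_apply, hGH, b.apply_symm_apply])
  have hHs : Function.Surjective H := fun v => ⟨b (G (a.symm v)), by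
    rw [hH]; simp [hHG]⟩
  have hφL : LipschitzWith _ φ :=
    (hΦL.comp (lipschitz_retraction.comp b.symm.lipschitz)).sub
      (a.lipschitz.comp (hHx3.comp (lipschitz_retraction.comp b.symm.lipschitz)))
  have hoff : ∀ w, w ∉ K → φ w = 0 := fun w hw => by
    rw [hmemK, not_le] at hw
    simp only [hφ]
    rw [hΦS _ (retraction_mem_sphere hw.le), sub_self]
  have hFφ : ∀ w ∈ K, (H + φ) w = F w := fun w hw => by
    rw [hmemK] at hw
    simp only [Pi.add_apply, hH, hφ, hF, max_eq_left hw, inv_one, one_smul]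
    abel
  have himg : H '' K = a '' closedBall 0 1 := by
    ext v
    constructor
    · rintro ⟨w, hw, rfl⟩
      exact ⟨Hx (b.symm w), by rw [mem_closedBall_zero_iff, hHn]; exact (hmemK w).1 hw, rfl⟩
    · rintro ⟨x, hx, rfl⟩
      refine ⟨b (G x), ?_, by simp [hH, hHG]⟩
      rw [hmemK, b.symm_apply_apply, hG, norm_homExt]
      exact mem_closedBall_zero_iff.1 hx
  have hFL : LipschitzWith _ F := hΦL.comp b.symm.lipschitz
  have hvolume : vol (Euc n) (H '' K) ≤
      ∫⁻ w in K, ENNReal.ofReal |(fderiv ℝ (H + φ) w).det| ∂(vol (Euc n)) :=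
    measure_image_le hKc hHL hHA hHs hφL hoff
  -- pointwise bound on the derivative
  have hder : ∀ᵐ w ∂(vol (Euc n)), w ∈ O →
      |(fderiv ℝ (H + φ) w).det| ≤ 1 ∧
        (|(fderiv ℝ (H + φ) w).det| = 1 → ‖fderiv ℝ F w‖ ≤ 1) := by
    have hall : ∀ᵐ w ∂(vol (Euc n)), ∀ i, DifferentiableAt ℝ (fun w => u i (b.symm w)) w :=
      ae_all_iff.2 fun i => ((hu i).comp b.symm.lipschitz).ae_differentiableAt
    filter_upwards [hall] with w hw hwO
    set r : Fin jx.m → Euc n →L[ℝ] ℝ := fun i => fderiv ℝ (fun w => u i (b.symm w)) w with hr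
    have hFd : HasFDerivAt F (∑ i, ((jx.wt i) • r i).smulRight (jx.vec i)) w := by
      rw [hF, hΦ]
      exact HasFDerivAt.fun_sum fun i _ => ((hw i).hasFDerivAt.const_mul _).smul_const _
    have hev : (H + φ) =ᶠ[𝓝 w] F := eventually_of_mem (hOopen.mem_nhds hwO) fun z hz =>
      hFφ z ((hmemK z).2 ((hmemO z).1 hz).le)
    rw [hev.fderiv_eq, hFd.fderiv]
    set D := ∑ i, ((jx.wt i) • r i).smulRight (jx.vec i) with hD
    have hrb : ∀ i z, |r i (b z)| ≤ ‖z‖ := fun i z => by
      have h1 : HasFDerivAt (u i) ((r i).comp (b : Y →L[ℝ] Euc n)) (b.symm w) := by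
        have h2 : HasFDerivAt ((fun w => u i (b.symm w)) ∘ b)
            ((r i).comp (b : Y →L[ℝ] Euc n)) (b.symm w) :=
          (show HasFDerivAt (fun w => u i (b.symm w)) (r i) (b (b.symm w)) by
            rw [b.apply_symm_apply]; exact (hw i).hasFDerivAt).comp _ b.hasFDerivAt
        simpa [Function.comp_def] using h2
      have h3 := h1.le_of_lipschitz (hu i)
      have := ((r i).comp (b : Y →L[ℝ] Euc n)).le_of_opNorm_le h3 z
      simpa [Real.norm_eq_abs] using this
    have hDz : ∀ z, ‖D z‖ ^ 2 ≤ ∑ i, jx.wt i * r i z ^ 2 := fun z => by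
      have e1 : ‖D z‖ ^ 2 = ∑ i, jx.wt i * (r i z * ⟪jx.vec i, D z⟫) := by
        have hDz' : D z = ∑ i, (jx.wt i * r i z) • jx.vec i := by simp [hD]
        rw [← real_inner_self_eq_norm_sq]
        nth_rw 1 [hDz']
        simp [sum_inner, real_inner_smul_left, mul_assoc]
      have e2 : ‖D z‖ ^ 2 = ∑ i, jx.wt i * (⟪jx.vec i, D z⟫ ^ 2) := by
        rw [← real_inner_self_eq_norm_sq]
        nth_rw 1 [← jx.resolution (D z)]
        simp [sum_inner, real_inner_smul_left, mul_assoc, sq]
      have e3 : 2 * ‖D z‖ ^ 2 ≤ ∑ i, jx.wt i * r i z ^ 2 + ‖D z‖ ^ 2 := by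
        calc 2 * ‖D z‖ ^ 2 = ∑ i, jx.wt i * (2 * (r i z * ⟪jx.vec i, D z⟫)) := by
              rw [e1, Finset.mul_sum]; exact Finset.sum_congr rfl fun i _ => by ring
          _ ≤ ∑ i, jx.wt i * (r i z ^ 2 + ⟪jx.vec i, D z⟫ ^ 2) :=
              Finset.sum_le_sum fun i _ => mul_le_mul_of_nonneg_left
                (by nlinarith [sq_nonneg (r i z - ⟪jx.vec i, D z⟫)]) (jx.wt_nonneg i)
          _ = _ := by rw [e2, ← Finset.sum_add_distrib]; simp [mul_add]
      linarith
    refine det_bound D ?_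
    refine (Finset.sum_le_sum fun j _ => hDz _).trans ?_
    rw [Finset.sum_comm]
    simp only [← Finset.mul_sum]
    calc ∑ i, jx.wt i * ∑ j, r i (EuclideanSpace.basisFun (Fin n) ℝ j) ^ 2
        ≤ ∑ i, jx.wt i * (n : ℝ) := Finset.sum_le_sum fun i _ => by
          refine mul_le_mul_of_nonneg_left ?_ (jx.wt_nonneg i)
          set ρ := (InnerProductSpace.toDual ℝ (Euc n)).symm (r i) with hρ
          have hρr : ∀ z, r i z = ⟪ρ, z⟫ := fun z => by
            rw [hρ, InnerProductSpace.toDual_symm_apply]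
          simp only [hρr, OrthonormalBasis.sum_sq_inner_left]
          refine jy.trace_le ρ fun z => ?_
          rw [← hρr]
          exact (le_abs_self _).trans (hrb i z)
      _ = n := by rw [← Finset.sum_mul, jx.wt_sum, one_mul]
  have hKO : (O : Set (Euc n)) =ᵐ[vol (Euc n)] K := by
    have h0 : vol (Euc n) (K \ O) = 0 := by
      refine measure_mono_null (t := b '' sphere 0 1) ?_ ?_
      · rintro w ⟨h1, h2⟩
        rw [hmemK] at h1
        rw [hmemO, not_lt] at h2
        exact ⟨b.symm w, mem_sphere_zero_iff_norm.2 (le_antisymm h1 h2), b.apply_symm_apply w⟩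
      · rcases subsingleton_or_nontrivial Y with hY | hY
        · rw [show sphere (0 : Y) 1 = ∅ from Set.eq_empty_iff_forall_notMem.2 fun z hz => by
            simp [Subsingleton.elim z 0] at hz, Set.image_empty, measure_empty]
        exact vol_image_eq_zero b.toLinearEquiv.finrank_eq.symm
          (b : Y →L[ℝ] Euc n).lipschitz.lipschitzOnWith (Measure.addHaar_sphere (vol Y) 0 1)
    refine (ae_le_set.2 ?_).antisymm (ae_le_set.2 h0)
    rw [Set.diff_eq_empty.2 (Set.image_mono ball_subset_closedBall), measure_empty]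
  have hle : (fun w => ENNReal.ofReal |(fderiv ℝ (H + φ) w).det|) ≤ᵐ[(vol (Euc n)).restrict O]
      fun _ => 1 := by
    rw [EventuallyLE, ae_restrict_iff' hOopen.measurableSet]
    filter_upwards [hder] with w hw hwO
    exact ENNReal.ofReal_le_one.2 (hw hwO).1
  have hupper : ∫⁻ w in O, ENNReal.ofReal |(fderiv ℝ (H + φ) w).det| ∂(vol (Euc n)) ≤
      vol (Euc n) K := by
    refine (lintegral_mono_ae hle).trans ?_
    rw [setLIntegral_const, one_mul]
    exact measure_mono (Set.image_mono ball_subset_closedBall)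
  rw [← setLIntegral_congr hKO, himg] at hvolume
  refine ⟨hvolume.trans hupper, fun hrev x x' => ?_⟩
  have hKfin : vol (Euc n) K ≠ ∞ := hKc.measure_lt_top.ne
  have heq := ae_eq_of_ae_le_of_lintegral_le hle
    (ne_top_of_le_ne_top hKfin hupper) aemeasurable_const (by
      rw [setLIntegral_const, one_mul, measure_congr hKO]
      exact hrev.trans hvolume)
  rw [EventuallyEq, ae_restrict_iff' hOopen.measurableSet] at heq
  have hae : ∀ᵐ w ∂(vol (Euc n)), w ∈ O → ‖fderiv ℝ F w‖ ≤ 1 := by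
    filter_upwards [hder, heq] with w hw hw' hwO
    refine (hw hwO).2 ?_
    exact ENNReal.ofReal_eq_one.1 (hw' hwO)
  have hOc : Convex ℝ O := (convex_ball (0 : Y) 1).linear_image (b.toLinearEquiv : Y →ₗ[ℝ] Euc n)
  have hcl : ∀ x : sphere (0 : X) 1, b (f x) ∈ closure O := fun x => by
    refine image_closure_subset_closure_image b.continuous ⟨(f x : Y), ?_, rfl⟩
    rw [closure_ball (0 : Y) one_ne_zero, mem_closedBall_zero_iff]
    exact (mem_sphere_zero_iff_norm.1 (f x).2).le
  have hFx : ∀ x : sphere (0 : X) 1, F (b (f x)) = a x := fun x => by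
    rw [hF]
    simp only [b.symm_apply_apply]
    rw [hΦS _ (mem_sphere_zero_iff_norm.1 (f x).2), hHx, homExt_unit, f.symm_apply_apply]
  have h := norm_sub_le_of_ae hFL hOopen hOc hae (hcl x') (hcl x)
  rwa [hFx, hFx] at h

end OneSide

section Rigid

variable {E : Type*} [NormedAddCommGroup E] [InnerProductSpace ℝ E] [FiniteDimensional ℝ E]

/-- A Euclidean isometry of a spanning set is the restriction of an affine isometry. -/
lemma exists_linear_isometry {ι : Type*} (P P' : ι → E)
    (hd : ∀ i j, ‖P i - P j‖ = ‖P' i - P' j‖) (i₀ : ι)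
    (hspan : Submodule.span ℝ (Set.range fun i => P i - P i₀) = ⊤) :
    ∃ U : E ≃ₗᵢ[ℝ] E, ∀ i, U (P i - P i₀) = P' i - P' i₀ := by
  set Φ : (ι →₀ ℝ) →ₗ[ℝ] E := Finsupp.linearCombination ℝ fun i => P i - P i₀
  set Φ' : (ι →₀ ℝ) →ₗ[ℝ] E := Finsupp.linearCombination ℝ fun i => P' i - P' i₀
  have hin : ∀ i j, ⟪P i - P i₀, P j - P i₀⟫ = ⟪P' i - P' i₀, P' j - P' i₀⟫ := fun i j => by
    have h1 := norm_sub_sq_real (P i - P i₀) (P j - P i₀)
    have h2 := norm_sub_sq_real (P' i - P' i₀) (P' j - P' i₀)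
    rw [sub_sub_sub_cancel_right, hd, hd, hd] at h1
    rw [sub_sub_sub_cancel_right] at h2
    linarith
  have hnorm : ∀ c, ‖Φ c‖ = ‖Φ' c‖ := fun c => by
    have : ⟪Φ c, Φ c⟫ = ⟪Φ' c, Φ' c⟫ := by
      simp only [Φ, Φ', Finsupp.linearCombination_apply, Finsupp.sum, sum_inner, inner_sum,
        real_inner_smul_left, real_inner_smul_right, hin]
    rw [real_inner_self_eq_norm_sq, real_inner_self_eq_norm_sq] at this
    exact (sq_eq_sq₀ (norm_nonneg _) (norm_nonneg _)).1 this
  have hsurj : Function.Surjective Φ := by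
    rw [← LinearMap.range_eq_top, Finsupp.range_linearCombination]
    exact hspan
  obtain ⟨R, hR⟩ := Φ.exists_rightInverse_of_surjective (LinearMap.range_eq_top.2 hsurj)
  have hR' : ∀ z, Φ (R z) = z := fun z => LinearMap.congr_fun hR z
  let U : E →ₗᵢ[ℝ] E := ⟨Φ'.comp R, fun z => by
    rw [LinearMap.comp_apply, ← hnorm, hR']⟩
  refine ⟨U.toLinearIsometryEquiv rfl, fun i => ?_⟩
  show Φ' (R (P i - P i₀)) = _
  have h1 : Φ (Finsupp.single i 1) = P i - P i₀ := by simp [Φ]
  have h2 : ‖Φ' (R (P i - P i₀) - Finsupp.single i 1)‖ = 0 := by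
    rw [← hnorm, map_sub, hR', h1, sub_self, norm_zero]
  rw [norm_eq_zero, map_sub, sub_eq_zero] at h2
  rw [h2]
  simp [Φ']

end Rigid

/-- **Tingley's problem in finite dimensions.** -/
theorem extends_linearly_finite {X Y : Type*} [NormedAddCommGroup X] [NormedSpace ℝ X]
    [FiniteDimensional ℝ X] [NormedAddCommGroup Y] [NormedSpace ℝ Y]
    {f : sphere (0 : X) 1 → sphere (0 : Y) 1} (hf : Isometry f) (hsurj : Function.Surjective f) :
    ∃ T : X ≃ₗᵢ[ℝ] Y, ∀ x : sphere (0 : X) 1, T x = f x := by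
  classical
  let fe : sphere (0 : X) 1 ≃ᵢ sphere (0 : Y) 1 :=
    ⟨Equiv.ofBijective f ⟨hf.injective, hsurj⟩, hf⟩
  have hfe : ∀ x, fe x = f x := fun x => rfl
  have : ProperSpace X := FiniteDimensional.proper_real X
  have : FiniteDimensional ℝ Y := by
    refine FiniteDimensional.of_isCompact_closedBall₀ ℝ zero_lt_one ?_
    convert (isCompact_closedBall (0 : X) 1).image (lipschitz_homExt fe).continuous
    ext w
    simp only [Set.mem_image, mem_closedBall_zero_iff]
    refine ⟨fun h => ⟨homExt (fun y => (fe.symm y : X)) w, by rwa [norm_homExt], ?_⟩,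
      fun ⟨v, hv, e⟩ => by rwa [← e, norm_homExt]⟩
    simpa using homExt_symm fe.symm w
  set n := Module.finrank ℝ X with hn
  have hdim : Module.finrank ℝ Y = n :=
    le_antisymm (finrank_le_of_sphere fe) (finrank_le_of_sphere fe.symm)
  rcases Nat.eq_zero_or_pos n with hn0 | hnpos
  · have hsX : Subsingleton X := Module.finrank_zero_iff.1 hn0
    have hsY : Subsingleton Y := Module.finrank_zero_iff.1 (hdim.trans hn0)
    refine ⟨⟨LinearEquiv.ofFinrankEq X Y hdim.symm, fun x => ?_⟩, fun x => ?_⟩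
    · rw [Subsingleton.elim x 0, map_zero, norm_zero, norm_zero]
    · exact Subsingleton.elim _ _
  obtain ⟨jx⟩ := exists_johnPos (Y := X) hnpos rfl
  obtain ⟨jy⟩ := exists_johnPos (Y := Y) hnpos hdim
  set a := jx.coord with ha
  set b := jy.coord with hb
  have h1 := john_side jx jy fe
  have h2 := john_side jy jx fe.symm
  have hd : ∀ x x' : sphere (0 : X) 1, ‖a x - a x'‖ = ‖b (f x) - b (f x')‖ := fun x x' => by
    refine le_antisymm ?_ ?_
    · simpa [hfe] using h1.2 h2.1 x x'
    · have h := h2.2 h1.1 (fe x) (fe x')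
      rwa [fe.symm_apply_apply, fe.symm_apply_apply, hfe, hfe] at h
  have : Nontrivial X := Module.nontrivial_of_finrank_pos (R := ℝ) hnpos
  obtain ⟨v₀, hv₀⟩ := exists_ne (0 : X)
  set x₀ : sphere (0 : X) 1 := ⟨‖v₀‖⁻¹ • v₀, by simp [norm_smul, hv₀]⟩ with hx₀
  -- the sphere differences span
  have hspan : Submodule.span ℝ (Set.range fun x : sphere (0 : X) 1 => a x - a x₀) = ⊤ := by
    set S := Submodule.span ℝ (Set.range fun x : sphere (0 : X) 1 => a x - a x₀) with hS
    have hmem : ∀ x : sphere (0 : X) 1, a x - a x₀ ∈ S := fun x =>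
      Submodule.subset_span ⟨x, rfl⟩
    have h0 : a x₀ ∈ S := by
      have h := S.smul_mem (-(1 / 2 : ℝ)) (hmem (-x₀))
      convert h using 1
      rw [coe_neg_sphere, map_neg]
      module
    have hsph : ∀ x : sphere (0 : X) 1, a x ∈ S := fun x => by
      simpa using S.add_mem (hmem x) h0
    refine Submodule.eq_top_iff'.2 fun w => ?_
    rcases eq_or_ne (a.symm w) 0 with h | h
    · rw [← a.apply_symm_apply w, h, map_zero]
      exact S.zero_mem
    · have := S.smul_mem ‖a.symm w‖
        (hsph ⟨‖a.symm w‖⁻¹ • a.symm w, by simp [norm_smul, h]⟩)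
      rwa [← map_smul, smul_smul, mul_inv_cancel₀ (norm_ne_zero_iff.2 h), one_smul,
        a.apply_symm_apply] at this
  obtain ⟨U, hU⟩ := exists_linear_isometry (fun x : sphere (0 : X) 1 => a x)
    (fun x => b (f x)) hd x₀ hspan
  -- the affine map fixes the centre
  set L : X ≃L[ℝ] Y := a.trans (U.toContinuousLinearEquiv.trans b.symm) with hL
  set μ : Y := (f x₀ : Y) - L x₀ with hμ
  have hLf : ∀ x : sphere (0 : X) 1, L x + μ = f x := fun x => by
    have h := congrArg b.symm (hU x)
    simp only [map_sub, b.symm_apply_apply] at h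
    simp only [hμ, hL, ContinuousLinearEquiv.trans_apply,
      LinearIsometryEquiv.coe_toContinuousLinearEquiv]
    linear_combination (norm := module) h
  have hnormY : ∀ x : sphere (0 : X) 1, ‖(f x : Y)‖ = 1 := fun x => mem_sphere_zero_iff_norm.1 (f x).2
  have htrans : ∀ x : sphere (0 : X) 1, ‖(f x : Y) + (2 : ℝ) • (-μ)‖ = 1 := fun x => by
    have h1 := hLf x
    have h2 := hLf (-x)
    rw [coe_neg_sphere, map_neg] at h2
    rw [show (f x : Y) + (2 : ℝ) • (-μ) = -(f (-x) : Y) by rw [← h1, ← h2]; module, norm_neg]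
    exact hnormY (-x)
  have hk : ∀ (k : ℕ) (x : sphere (0 : X) 1), ‖(f x : Y) + ((2 : ℝ) * k) • (-μ)‖ = 1 := by
    intro k
    induction k with
    | zero => intro x; simpa using hnormY x
    | succ k ih =>
      intro x
      obtain ⟨x', hx'⟩ := hsurj ⟨(f x : Y) + (2 : ℝ) • (-μ), mem_sphere_zero_iff_norm.2 (htrans x)⟩
      have := ih x'
      rw [hx'] at this
      convert this using 2
      push_cast
      module
  have hμ0 : μ = 0 := by
    by_contra hne
    obtain ⟨k, hkk⟩ := exists_nat_gt (1 / ‖μ‖)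
    rw [div_lt_iff₀ (norm_pos_iff.2 hne)] at hkk
    have h := norm_add_le ((f x₀ : Y) + ((2 : ℝ) * k) • (-μ)) (-(f x₀ : Y))
    rw [hk k x₀, norm_neg, hnormY, add_neg_cancel_comm, norm_smul, norm_neg, norm_mul,
      Real.norm_two, Real.norm_of_nonneg k.cast_nonneg] at h
    nlinarith
  have hLx : ∀ x : sphere (0 : X) 1, L x = (f x : Y) := fun x => by
    simpa [hμ0] using hLf x
  refine ⟨⟨L.toLinearEquiv, fun v => ?_⟩, hLx⟩
  show ‖L v‖ = ‖v‖
  rcases eq_or_ne v 0 with rfl | hv
  · simp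
  set x : sphere (0 : X) 1 := ⟨‖v‖⁻¹ • v, by simp [norm_smul, hv]⟩ with hx
  have e : v = ‖v‖ • (x : X) := by simp [hx, smul_smul, hv]
  conv_lhs => rw [e, map_smul, hLx x, norm_smul, norm_norm, hnormY, mul_one]

end Vale.Agent.P084
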